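import Mathlib
import Vale.Agent.Lib.P058.Defs

/-!
# P058 pool job J8: coordinates of `mk2` and the distance formula in `E2`
-/

namespace Vale.Agent.Lib.P058.H45

open Vale.Agent.Lib.P058

theorem mk2_apply (x y : ℂ) : mk2 x y 0 = x ∧ mk2 x y 1 = y := by
  constructor
  · simp [mk2]
  · simp [mk2]

theorem dist_mk2 (x0 x1 y0 y1 : ℂ) :
    dist (mk2 x0 x1) (mk2 y0 y1)
      = Real.sqrt (Complex.normSq (x0 - y0) + Complex.normSq (x1 - y1)) := by
  rw [EuclideanSpace.dist_eq, Fin.sum_univ_two]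
  obtain ⟨h0, h1⟩ := mk2_apply x0 x1
  obtain ⟨k0, k1⟩ := mk2_apply y0 y1
  rw [h0, h1, k0, k1, Complex.dist_eq, Complex.dist_eq, Complex.sq_norm, Complex.sq_norm]

end Vale.Agent.Lib.P058.H45
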